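import Mathlib

set_option autoImplicit false

namespace Crest.Agent.R19

open Finset

theorem card_sq_le_image_mul_coll {α β : Type*} [DecidableEq β] (T : Finset α) (f : α → β) :
    T.card ^ 2 ≤ (T.image f).card * ((T ×ˢ T).filter (fun x => f x.1 = f x.2)).card := by
  classical
  have h1 : T.card = ∑ b ∈ T.image f, (T.filter (fun a => f a = b)).card :=
    Finset.card_eq_sum_card_image f T
  have h2 : ((T ×ˢ T).filter (fun x => f x.1 = f x.2)).card =
      ∑ b ∈ T.image f, (T.filter (fun a => f a = b)).card ^ 2 := by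
    rw [Finset.card_eq_sum_card_fiberwise (f := fun x : α × α => f x.1) (t := T.image f)]
    · apply Finset.sum_congr rfl
      intro b _
      rw [sq, ← Finset.card_product]
      congr 1
      ext ⟨x, y⟩
      simp only [mem_filter, mem_product]
      constructor
      · rintro ⟨⟨⟨h1, h2⟩, h3⟩, h4⟩
        exact ⟨⟨h1, h4⟩, h2, h3 ▸ h4⟩
      · rintro ⟨⟨h1, h4⟩, h2, h3⟩
        exact ⟨⟨⟨h1, h2⟩, h4.trans h3.symm⟩, h4⟩
    · intro x hx
      simp only [coe_filter, mem_product, Set.mem_ofPred_eq] at hx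
      simp only [coe_image, Set.mem_image, mem_coe]
      exact ⟨x.1, hx.1.1, rfl⟩
  rw [h2, h1]
  exact sq_sum_le_card_mul_sum_sq

/-- sum over all dilations of the energy -/
theorem sum_energy_le {F : Type*} [Field F] [Fintype F] [DecidableEq F] (A : Finset F) :
    ∑ y : F, (((A ×ˢ A) ×ˢ (A ×ˢ A)).filter
      (fun x => x.1.1 + y * x.1.2 = x.2.1 + y * x.2.2)).card ≤
      Fintype.card F * A.card ^ 2 + A.card ^ 4 := by
  simp_rw [Finset.card_filter]
  rw [Finset.sum_comm]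
  have key : ∀ x ∈ (A ×ˢ A) ×ˢ (A ×ˢ A),
      (∑ y : F, if x.1.1 + y * x.1.2 = x.2.1 + y * x.2.2 then 1 else 0) ≤
        Fintype.card F * (if x.1 = x.2 then 1 else 0) + 1 := by
    rintro ⟨⟨a, b⟩, ⟨a', b'⟩⟩ _
    rw [← Finset.card_filter]
    by_cases h : (a, b) = (a', b')
    · simp only [h, if_true, mul_one]
      exact (Finset.card_le_univ _).trans (Nat.le_succ _)
    · simp only [h, if_false, mul_zero, zero_add]
      rw [Finset.card_le_one]
      intro y hy y' hy'
      simp only [mem_filter, mem_univ, true_and] at hy hy'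
      by_contra hne
      have h1 : (y - y') * (b - b') = 0 := by linear_combination hy - hy'
      rcases mul_eq_zero.1 h1 with h2 | h2
      · exact hne (sub_eq_zero.1 h2)
      · have hb : b = b' := sub_eq_zero.1 h2
        subst hb
        have ha : a = a' := by linear_combination hy
        exact h (by rw [ha])
  refine (Finset.sum_le_sum key).trans ?_
  rw [Finset.sum_add_distrib, ← Finset.mul_sum, ← Finset.card_filter]
  have h1 : (((A ×ˢ A) ×ˢ (A ×ˢ A)).filter (fun x => x.1 = x.2)).card ≤ A.card ^ 2 := by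
    rw [sq, ← Finset.card_product]
    apply Finset.card_le_card_of_injOn (fun x => x.1)
    · intro x hx
      simp only [coe_filter, Set.mem_ofPred_eq] at hx
      have := (Finset.mem_product.1 hx.1).1
      simpa using this
    · intro x hx y hy hxy
      simp only [coe_filter, Set.mem_ofPred_eq] at hx hy
      have : x.1 = y.1 := hxy
      ext1
      · exact this
      · rw [← hx.2, ← hy.2, this]
  have h2 : ∑ _x ∈ (A ×ˢ A) ×ˢ (A ×ˢ A), 1 = A.card ^ 4 := by
    simp [Finset.card_product]; ring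
  rw [h2]
  gcongr

theorem exists_dilate {F : Type*} [Field F] [Fintype F] [DecidableEq F] (A Y : Finset F)
    (L : ℕ) (hA : Fintype.card F ≤ L * A.card) (hY : L ^ 2 < Y.card) :
    ∃ y ∈ Y, ∀ c : F, ∃ a₁ ∈ A, ∃ a₂ ∈ A, ∃ a₃ ∈ A, ∃ a₄ ∈ A,
      c = a₁ + y * a₂ + a₃ + y * a₄ := by
  set p := Fintype.card F with hp
  have hp0 : 0 < p := Fintype.card_pos
  have hA0 : 0 < A.card := by
    rcases Nat.eq_zero_or_pos A.card with h | h
    · rw [h] at hA; omega
    · exact h
  let E : F → ℕ := fun y => (((A ×ˢ A) ×ˢ (A ×ˢ A)).filter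
      (fun x => x.1.1 + y * x.1.2 = x.2.1 + y * x.2.2)).card
  let N : F → Finset F := fun y => (A ×ˢ A).image (fun x => x.1 + y * x.2)
  have hEN : ∀ y, A.card ^ 4 ≤ (N y).card * E y := by
    intro y
    have := card_sq_le_image_mul_coll (A ×ˢ A) (fun x => x.1 + y * x.2)
    rw [Finset.card_product] at this
    calc A.card ^ 4 = (A.card * A.card) ^ 2 := by ring
      _ ≤ _ := this
  have hex : ∃ y ∈ Y, p < 2 * (N y).card := by
    by_contra hcon
    push Not at hcon
    have h1 : ∀ y : F, A.card ^ 4 * (1 + if y ∈ Y then 1 else 0) ≤ p * E y := by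
      intro y
      by_cases hy : y ∈ Y
      · simp only [hy, if_true]
        calc A.card ^ 4 * (1 + 1) ≤ (N y).card * E y * (1 + 1) := by gcongr; exact hEN y
          _ = (2 * (N y).card) * E y := by ring
          _ ≤ p * E y := by gcongr; exact hcon y hy
      · simp only [hy, if_false, add_zero, mul_one]
        calc A.card ^ 4 ≤ (N y).card * E y := hEN y
          _ ≤ p * E y := by gcongr; exact Finset.card_le_univ _
    have h2 := Finset.sum_le_sum (s := Finset.univ) (fun y _ => h1 y)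
    rw [← Finset.mul_sum, ← Finset.mul_sum, Finset.sum_add_distrib, ← Finset.card_filter] at h2
    simp only [sum_const, card_univ, smul_eq_mul, mul_one, filter_mem_eq_inter, univ_inter] at h2
    have h3 := sum_energy_le A
    have h4 : A.card ^ 4 * (p + Y.card) ≤ p * (p * A.card ^ 2 + A.card ^ 4) :=
      h2.trans (Nat.mul_le_mul_left _ h3)
    have h5 : A.card ^ 2 * (A.card ^ 2 * Y.card) ≤ A.card ^ 2 * p ^ 2 := by nlinarith
    have h6 : A.card ^ 2 * Y.card ≤ p ^ 2 := Nat.le_of_mul_le_mul_left h5 (by positivity)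
    have h7 : p ^ 2 ≤ A.card ^ 2 * L ^ 2 := by
      calc p ^ 2 ≤ (L * A.card) ^ 2 := by gcongr
        _ = _ := by ring
    have h8 : Y.card ≤ L ^ 2 := Nat.le_of_mul_le_mul_left (h6.trans h7) (by positivity)
    omega
  obtain ⟨y, hy, hN⟩ := hex
  refine ⟨y, hy, fun c => ?_⟩
  have hnd : ¬ Disjoint (N y) ((N y).image (fun z => c - z)) := by
    intro hd
    have h1 := Finset.card_union_of_disjoint hd
    have h2 : ((N y).image (fun z => c - z)).card = (N y).card :=
      Finset.card_image_of_injective _ sub_right_injective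
    have h3 : (N y ∪ (N y).image (fun z => c - z)).card ≤ p := Finset.card_le_univ _
    omega
  obtain ⟨z, hz1, hz2⟩ := Finset.not_disjoint_iff.1 hnd
  obtain ⟨w, hw, rfl⟩ := Finset.mem_image.1 hz2
  obtain ⟨⟨a₁, a₂⟩, h12, h12'⟩ := Finset.mem_image.1 hz1
  obtain ⟨⟨a₃, a₄⟩, h34, rfl⟩ := Finset.mem_image.1 hw
  rw [Finset.mem_product] at h12 h34
  refine ⟨a₁, h12.1, a₂, h12.2, a₃, h34.1, a₄, h34.2, ?_⟩
  simp only at h12'
  linear_combination -h12'

theorem exists_dilate_nat {p : ℕ} (hp : p.Prime) (X : Finset ℕ) (L Y : ℕ)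
    (hA : p ≤ L * (X.image (fun x : ℕ => (x : ZMod p))).card) (hY : L ^ 2 < Y) (hYp : Y ≤ p) :
    ∃ y < Y, ∀ c : ℕ, ∃ a₁ ∈ X, ∃ a₂ ∈ X, ∃ a₃ ∈ X, ∃ a₄ ∈ X,
      a₁ + y * a₂ + a₃ + y * a₄ ≡ c [MOD p] := by
  haveI : Fact p.Prime := ⟨hp⟩
  have hcard : ((Finset.range Y).image (fun x : ℕ => (x : ZMod p))).card = Y := by
    rw [Finset.card_image_of_injOn, Finset.card_range]
    intro a ha b hb hab
    simp only [coe_range, Set.mem_Iio] at ha hb
    have := (ZMod.natCast_eq_natCast_iff' a b p).1 hab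
    rwa [Nat.mod_eq_of_lt (by omega), Nat.mod_eq_of_lt (by omega)] at this
  obtain ⟨y, hy, H⟩ := exists_dilate (X.image (fun x : ℕ => (x : ZMod p)))
    ((Finset.range Y).image (fun x : ℕ => (x : ZMod p))) L (by simpa [ZMod.card] using hA)
    (by rwa [hcard])
  obtain ⟨y', hy', rfl⟩ := Finset.mem_image.1 hy
  refine ⟨y', Finset.mem_range.1 hy', fun c => ?_⟩
  obtain ⟨a₁, h₁, a₂, h₂, a₃, h₃, a₄, h₄, h⟩ := H (c : ZMod p)
  obtain ⟨b₁, hb₁, rfl⟩ := Finset.mem_image.1 h₁
  obtain ⟨b₂, hb₂, rfl⟩ := Finset.mem_image.1 h₂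
  obtain ⟨b₃, hb₃, rfl⟩ := Finset.mem_image.1 h₃
  obtain ⟨b₄, hb₄, rfl⟩ := Finset.mem_image.1 h₄
  refine ⟨b₁, hb₁, b₂, hb₂, b₃, hb₃, b₄, hb₄, ?_⟩
  rw [← ZMod.natCast_eq_natCast_iff]
  push_cast
  exact h.symm

theorem card_primes_dvd_le {Q : Finset ℕ} (hQ : ∀ s ∈ Q, s.Prime) {d t : ℕ} (hd : 0 < d)
    (hdt : d ≤ 2 ^ t) : (Q.filter (fun s => s ∣ d)).card ≤ t := by
  have h1 : Q.filter (fun s => s ∣ d) ⊆ d.primeFactors := by
    intro s hs
    rw [Finset.mem_filter] at hs
    exact Nat.mem_primeFactors.2 ⟨hQ s hs.1, hs.2, hd.ne'⟩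
  have h2 : 2 ^ d.primeFactors.card ≤ ∏ p ∈ d.primeFactors, p :=
    Finset.pow_card_le_prod _ _ _ (fun p hp => (Nat.prime_of_mem_primeFactors hp).two_le)
  have h3 : ∏ p ∈ d.primeFactors, p ≤ d := Nat.le_of_dvd hd (Nat.prod_primeFactors_dvd d)
  have h4 : d.primeFactors.card ≤ t :=
    (Nat.pow_le_pow_iff_right (by norm_num)).1 (h2.trans (h3.trans hdt))
  exact (Finset.card_le_card h1).trans h4

/-- number of off-diagonal collisions of `X` modulo `s`. -/
def coll (X : Finset ℕ) (s : ℕ) : ℕ :=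
  ((X ×ˢ X).filter (fun x => x.1 ≠ x.2 ∧ x.1 ≡ x.2 [MOD s])).card

theorem sum_coll_le {Q : Finset ℕ} (hQ : ∀ s ∈ Q, s.Prime) (X : Finset ℕ) {t : ℕ}
    (hX : ∀ x ∈ X, x ≤ 2 ^ t) : ∑ s ∈ Q, coll X s ≤ X.card ^ 2 * t := by
  simp_rw [coll, Finset.card_filter]
  rw [Finset.sum_comm, sq, ← Finset.card_product, ← smul_eq_mul]
  apply Finset.sum_le_card_nsmul
  rintro ⟨a, b⟩ hab
  rw [Finset.mem_product] at hab
  rw [← Finset.card_filter]
  have ha := hX a hab.1
  have hb := hX b hab.2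
  rcases lt_trichotomy a b with h | h | h
  · refine le_trans (Finset.card_le_card ?_) (card_primes_dvd_le hQ (d := b - a) (by omega)
      (by omega))
    intro s hs
    rw [Finset.mem_filter] at hs ⊢
    exact ⟨hs.1, (Nat.modEq_iff_dvd' h.le).1 hs.2.2⟩
  · subst h; simp
  · refine le_trans (Finset.card_le_card ?_) (card_primes_dvd_le hQ (d := a - b) (by omega)
      (by omega))
    intro s hs
    rw [Finset.mem_filter] at hs ⊢
    exact ⟨hs.1, (Nat.modEq_iff_dvd' h.le).1 hs.2.2.symm⟩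

theorem card_sq_le_coll (X : Finset ℕ) (s : ℕ) :
    X.card ^ 2 ≤ (X.image (fun x : ℕ => (x : ZMod s))).card * (X.card + coll X s) := by
  refine (card_sq_le_image_mul_coll X (fun x : ℕ => (x : ZMod s))).trans ?_
  gcongr
  have : (X ×ˢ X).filter (fun x : ℕ × ℕ => (x.1 : ZMod s) = (x.2 : ZMod s)) ⊆
      (X.image fun x => (x, x)) ∪
        ((X ×ˢ X).filter (fun x => x.1 ≠ x.2 ∧ x.1 ≡ x.2 [MOD s])) := by
    rintro ⟨a, b⟩ hab
    rw [Finset.mem_filter] at hab
    rw [Finset.mem_union]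
    by_cases h : a = b
    · left
      subst h
      exact Finset.mem_image.2 ⟨a, (Finset.mem_product.1 hab.1).1, rfl⟩
    · right
      exact Finset.mem_filter.2 ⟨hab.1, h, (ZMod.natCast_eq_natCast_iff _ _ _).1 hab.2⟩
  refine (Finset.card_le_card this).trans ((Finset.card_union_le _ _).trans ?_)
  unfold coll
  gcongr
  exact Finset.card_image_le

theorem markov_half (Q : Finset ℕ) (g : ℕ → ℕ) (T : ℕ) (h : ∑ s ∈ Q, g s ≤ T) :
    Q.card ≤ 2 * (Q.filter (fun s => g s * Q.card ≤ 2 * T)).card := by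
  set bad := Q.filter (fun s => ¬ (g s * Q.card ≤ 2 * T)) with hbad
  have h1 : (Q.filter (fun s => g s * Q.card ≤ 2 * T)).card + bad.card = Q.card :=
    Finset.card_filter_add_card_filter_not _
  have h2 : bad.card • (2 * T + 1) ≤ ∑ s ∈ bad, g s * Q.card := by
    apply Finset.card_nsmul_le_sum
    intro s hs
    rw [hbad, Finset.mem_filter] at hs
    omega
  have h3 : ∑ s ∈ bad, g s * Q.card ≤ T * Q.card := by
    rw [← Finset.sum_mul]
    gcongr
    exact (Finset.sum_le_sum_of_subset (Finset.filter_subset _ _)).trans h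
  rw [smul_eq_mul] at h2
  have h4 : 2 * bad.card ≤ Q.card := by
    by_contra hcon
    push Not at hcon
    nlinarith
  omega

theorem pi_two_pow {t : ℕ} (ht : 3 ≤ t) : 2 ^ t ≤ 2 * t * Nat.primeCounting (2 ^ t) := by
  have h1 := Chebyshev.two_pow_le_mul_lcmUpto (2 ^ t)
  have h2 : Nat.lcmUpto (2 ^ t) ≤ (2 ^ t) ^ Nat.primeCounting (2 ^ t) := by
    rw [Nat.lcmUpto_eq_prod_pow_log, ← Nat.primesLE_card_eq_primeCounting]
    apply Finset.prod_le_pow_card
    intro p _
    exact Nat.pow_log_le_self _ (by positivity)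
  have h3 : 2 ^ t + 1 ≤ 2 ^ (t + 1) := by
    have : 0 < 2 ^ t := by positivity
    rw [pow_succ]; omega
  have h4 : 2 ^ (2 ^ t) ≤ 2 ^ (t + 1 + t * Nat.primeCounting (2 ^ t)) := by
    calc 2 ^ (2 ^ t) ≤ (2 ^ t + 1) * Nat.lcmUpto (2 ^ t) := h1
      _ ≤ 2 ^ (t + 1) * (2 ^ t) ^ Nat.primeCounting (2 ^ t) := by gcongr
      _ = _ := by rw [← pow_mul, ← pow_add]
  have h5 := (Nat.pow_le_pow_iff_right (by norm_num)).1 h4
  have h6 : 2 * (t + 1) ≤ 2 ^ t := by
    clear h1 h2 h3 h4 h5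
    induction t, ht using Nat.le_induction with
    | base => norm_num
    | succ n hn ih => rw [pow_succ]; omega
  nlinarith

end Crest.Agent.R19
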