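import Mathlib

set_option autoImplicit false

namespace Crest.Agent.R19

/-- `r` is a sum of at most `K` (not necessarily distinct) unit fractions. -/
def Rep (K : ℕ) (r : ℚ) : Prop :=
  ∃ m : Multiset ℕ, m.card ≤ K ∧ (∀ n ∈ m, 0 < n) ∧ (m.map fun n : ℕ => (1 : ℚ) / n).sum = r

theorem Rep.zero (K : ℕ) : Rep K 0 := ⟨0, by simp, by simp, by simp⟩

theorem Rep.mono {K K' : ℕ} {r : ℚ} (h : Rep K r) (hK : K ≤ K') : Rep K' r := by
  obtain ⟨m, h1, h2, h3⟩ := h
  exact ⟨m, h1.trans hK, h2, h3⟩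

theorem Rep.add {K K' : ℕ} {r r' : ℚ} (h : Rep K r) (h' : Rep K' r') : Rep (K + K') (r + r') := by
  obtain ⟨m, h1, h2, h3⟩ := h
  obtain ⟨m', h1', h2', h3'⟩ := h'
  refine ⟨m + m', by simp; omega, ?_, by simp only [Multiset.map_add, Multiset.sum_add, h3, h3']⟩
  intro n hn
  rcases Multiset.mem_add.1 hn with h | h
  · exact h2 n h
  · exact h2' n h

theorem Rep.unit {n : ℕ} (hn : 0 < n) : Rep 1 (1 / n) :=
  ⟨{n}, by simp, by simpa using hn, by simp⟩

theorem Rep.div {K : ℕ} {r : ℚ} (h : Rep K r) {c : ℕ} (hc : 0 < c) : Rep K (r / c) := by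
  obtain ⟨m, h1, h2, h3⟩ := h
  refine ⟨m.map (· * c), by simpa using h1, ?_, ?_⟩
  · intro n hn
    obtain ⟨a, ha, rfl⟩ := Multiset.mem_map.1 hn
    exact Nat.mul_pos (h2 a ha) hc
  · rw [← h3, Multiset.map_map, ← Multiset.sum_map_div]
    congr 1
    apply Multiset.map_congr rfl
    intro x _
    simp only [Function.comp, Nat.cast_mul]
    rw [div_div]

theorem Rep.mul {K K' : ℕ} {r r' : ℚ} (h : Rep K r) (h' : Rep K' r') : Rep (K * K') (r * r') := by
  obtain ⟨m, h1, h2, h3⟩ := h
  subst h3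
  refine Rep.mono (K := m.card * K') ?_ (Nat.mul_le_mul_right _ h1)
  clear h1
  induction m using Multiset.induction_on with
  | empty => simpa using Rep.zero 0
  | cons a s ih =>
    have ha : 0 < a := h2 a (Multiset.mem_cons_self a s)
    have ih' := ih (fun n hn => h2 n (Multiset.mem_cons_of_mem hn))
    have := (h'.div ha).add ih'
    simp only [Multiset.map_cons, Multiset.sum_cons, Multiset.card_cons]
    convert this using 1
    · ring
    · ring

theorem Rep.of_dvd {d D : ℕ} (hD : 0 < D) (h : d ∣ D) : Rep 1 ((d : ℚ) / D) := by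
  obtain ⟨c, rfl⟩ := h
  have hd : 0 < d := Nat.pos_of_mul_pos_right hD
  have hc : 0 < c := Nat.pos_of_mul_pos_left hD
  have := Rep.unit hc
  convert this using 1
  have : (d : ℚ) ≠ 0 := by positivity
  have : (c : ℚ) ≠ 0 := by positivity
  push_cast
  field_simp

/-- cancel a positive multiple. -/
theorem Rep.of_mul {K s c : ℕ} {D : ℚ} (hc : 0 < c) (h : Rep K (((s * c : ℕ) : ℚ) / D)) :
    Rep K ((s : ℚ) / D) := by
  have := h.div hc
  convert this using 1
  have : (c : ℚ) ≠ 0 := by positivity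
  push_cast
  field_simp

theorem rep_digits {L : ℕ} (hL : 0 < L) (m : ℕ) :
    ∀ j : ℕ, j < L ^ m → Rep m ((j : ℚ) / ((L.factorial * L ^ m : ℕ) : ℚ)) := by
  induction m with
  | zero =>
    intro j hj
    have : j = 0 := by simpa using hj
    subst this
    simpa using Rep.zero 0
  | succ m ih =>
    intro j hj
    have h1 : j / L < L ^ m := by
      rw [Nat.div_lt_iff_lt_mul hL]; rwa [pow_succ] at hj
    have h2 := ih _ h1
    have h3 : Rep 1 (((j % L : ℕ) : ℚ) / ((L.factorial * L ^ (m + 1) : ℕ) : ℚ)) := by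
      rcases Nat.eq_zero_or_pos (j % L) with h0 | h0
      · rw [h0]; simpa using Rep.zero 1
      · apply Rep.of_dvd
        · have := Nat.factorial_pos L
          positivity
        · exact Dvd.dvd.mul_right (Nat.dvd_factorial h0 (Nat.mod_lt _ hL).le) _
    have := h2.add h3
    convert this using 1
    have hj' : (j : ℚ) = (L : ℚ) * ((j / L : ℕ) : ℚ) + ((j % L : ℕ) : ℚ) := by
      exact_mod_cast (Nat.div_add_mod j L).symm
    have hL' : (L : ℚ) ≠ 0 := by positivity
    have hf : ((L.factorial : ℕ) : ℚ) ≠ 0 := by have := Nat.factorial_pos L; positivity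
    rw [hj']
    push_cast
    field_simp
    ring

theorem finite_reps (K : ℕ) : ∀ r : ℚ, {m : Multiset ℕ | m.card = K ∧ (∀ n ∈ m, 0 < n) ∧
    (m.map fun n : ℕ => (1 : ℚ) / n).sum = r}.Finite := by
  induction K with
  | zero =>
    intro r
    apply Set.Finite.subset (Set.finite_singleton 0)
    intro m hm
    simpa using hm.1
  | succ K ih =>
    intro r
    have hfin : (⋃ n ∈ Set.Iic ⌈((K : ℚ) + 1) / r⌉₊, (fun m : Multiset ℕ => n ::ₘ m) ''
        {m : Multiset ℕ | m.card = K ∧ (∀ n ∈ m, 0 < n) ∧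
          (m.map fun n : ℕ => (1 : ℚ) / n).sum = r - 1 / n}).Finite :=
      (Set.finite_Iic _).biUnion fun n _ => (ih _).image _
    apply hfin.subset
    rintro m ⟨h1, h2, h3⟩
    have hne : m ≠ 0 := by rintro rfl; simp at h1
    have hne' : m.toFinset.Nonempty := by simpa using hne
    obtain ⟨n, hn, hmin⟩ := m.toFinset.exists_min_image id hne'
    have hn' : n ∈ m := by simpa using hn
    have hn0 : 0 < n := h2 n hn'
    have hle : r ≤ (K + 1 : ℕ) • ((1 : ℚ) / n) := by
      rw [← h3, ← h1]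
      have := Multiset.sum_le_card_nsmul (m.map fun n : ℕ => (1 : ℚ) / n) ((1 : ℚ) / n) (by
        intro x hx
        obtain ⟨a, ha, rfl⟩ := Multiset.mem_map.1 hx
        have : n ≤ a := hmin a (by simpa using ha)
        apply one_div_le_one_div_of_le
        · exact_mod_cast hn0
        · exact_mod_cast this)
      simpa using this
    obtain ⟨m', rfl⟩ := Multiset.exists_cons_of_mem hn'
    have hr : 0 < r := by
      rw [← h3]
      simp only [Multiset.map_cons, Multiset.sum_cons]
      have : 0 ≤ (m'.map fun n : ℕ => (1 : ℚ) / n).sum := by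
        apply Multiset.sum_nonneg
        intro x hx
        obtain ⟨a, ha, rfl⟩ := Multiset.mem_map.1 hx
        positivity
      have : (0 : ℚ) < 1 / n := by positivity
      linarith
    simp only [Set.mem_iUnion, Set.mem_image, Set.mem_setOf_eq, Set.mem_Iic]
    refine ⟨n, ?_, m', ⟨?_, ?_, ?_⟩, rfl⟩
    · have : (n : ℚ) ≤ ((K : ℚ) + 1) / r := by
        rw [le_div_iff₀ hr]
        have hn1 : (0 : ℚ) < n := by exact_mod_cast hn0
        simp only [nsmul_eq_mul, Nat.cast_add, Nat.cast_one] at hle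
        rw [mul_one_div, le_div_iff₀ hn1] at hle
        linarith
      exact_mod_cast this.trans (Nat.le_ceil _)
    · simpa using h1
    · intro a ha; exact h2 a (Multiset.mem_cons_of_mem ha)
    · simp only [Multiset.map_cons, Multiset.sum_cons] at h3
      linarith

theorem Rep.distinct {K : ℕ} {r : ℚ} (h : Rep K r) (hr : r < 1) :
    ∃ S : Finset ℕ, (∀ n ∈ S, 2 ≤ n) ∧ S.card ≤ K ∧ ∑ n ∈ S, (1 : ℚ) / (n : ℚ) = r := by
  classical
  induction K using Nat.strong_induction_on with
  | _ K ih =>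
  by_cases hlt : ∃ K' < K, Rep K' r
  · obtain ⟨K', hK', h'⟩ := hlt
    obtain ⟨S, h1, h2, h3⟩ := ih K' hK' h'
    exact ⟨S, h1, h2.trans hK'.le, h3⟩
  push Not at hlt
  obtain ⟨m₀, h1, h2, h3⟩ := h
  have hcard : m₀.card = K := by
    by_contra hne
    exact hlt m₀.card (lt_of_le_of_ne h1 hne) ⟨m₀, le_rfl, h2, h3⟩
  obtain ⟨m, ⟨hm1, hm2, hm3⟩, hmax⟩ := Set.exists_max_image _ (fun m : Multiset ℕ => m.sum)
    (finite_reps K r) ⟨m₀, hcard, h2, h3⟩
  have hnn : ∀ s : Multiset ℕ, 0 ≤ (s.map fun n : ℕ => (1 : ℚ) / n).sum := by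
    intro s
    apply Multiset.sum_nonneg
    intro x hx
    obtain ⟨a, ha, rfl⟩ := Multiset.mem_map.1 hx
    positivity
  have hnodup : m.Nodup := by
    rw [Multiset.nodup_iff_ne_cons_cons]
    intro n m' hm
    subst hm
    have hn0 : 0 < n := hm2 n (Multiset.mem_cons_self _ _)
    have hpos' : ∀ a ∈ m', 0 < a := fun a ha =>
      hm2 a (Multiset.mem_cons_of_mem (Multiset.mem_cons_of_mem ha))
    simp only [Multiset.map_cons, Multiset.sum_cons, Multiset.card_cons] at hm1 hm3
    rcases Nat.even_or_odd' n with ⟨c, rfl | rfl⟩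
    · have hc : 0 < c := by omega
      apply hlt (m'.card + 1) (by omega)
      refine ⟨c ::ₘ m', by simp, ?_, ?_⟩
      · intro a ha
        rcases Multiset.mem_cons.1 ha with rfl | ha
        · exact hc
        · exact hpos' a ha
      · simp only [Multiset.map_cons, Multiset.sum_cons]
        rw [← hm3]
        have : (c : ℚ) ≠ 0 := by positivity
        push_cast
        field_simp
        ring
    · have hc : 0 < c := by
        rcases Nat.eq_zero_or_pos c with rfl | hc
        · have := hnn m'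
          norm_num at hm3
          simp only [one_div] at this
          linarith
        · exact hc
      have := hmax ((c + 1) ::ₘ ((2 * c + 1) * (c + 1)) ::ₘ m') ⟨by simpa using hm1, ?_, ?_⟩
      · simp only [Multiset.sum_cons] at this
        nlinarith
      · intro a ha
        rcases Multiset.mem_cons.1 ha with rfl | ha
        · omega
        rcases Multiset.mem_cons.1 ha with rfl | ha
        · positivity
        · exact hpos' a ha
      · simp only [Multiset.map_cons, Multiset.sum_cons]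
        rw [← hm3]
        push_cast
        field_simp
        ring
  refine ⟨⟨m, hnodup⟩, ?_, hm1.le, hm3⟩
  intro n hn
  have hn' : n ∈ m := hn
  have hn0 := hm2 n hn'
  by_contra hlt2
  have : n = 1 := by omega
  subst this
  obtain ⟨m', rfl⟩ := Multiset.exists_cons_of_mem hn'
  simp only [Multiset.map_cons, Multiset.sum_cons] at hm3
  have := hnn m'
  norm_num at hm3
  simp only [one_div] at this
  linarith

/-- one greedy step -/
theorem greedy_step {a b u : ℕ} (ha : 0 < a) (hu : a * u < b) :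
    ∃ a' n : ℕ, 0 < n ∧ n ≤ b ∧ a' < a ∧ a' * ((u + 1) * u) < b * n ∧
      (a : ℚ) / b = 1 / n + (a' : ℚ) / ((b * n : ℕ) : ℚ) := by
  have hb : 0 < b := by omega
  obtain ⟨n, hn⟩ : ∃ n, n = (b - 1) / a := ⟨_, rfl⟩
  have h1 : a * n ≤ b - 1 := by rw [hn]; exact Nat.mul_div_le _ _
  have h2 : b - 1 < a * (n + 1) := by rw [hn]; exact Nat.lt_mul_div_succ _ ha
  have hun : u ≤ n := by
    rw [hn, Nat.le_div_iff_mul_le ha]
    rw [mul_comm]; omega
  have hnb : n ≤ b - 1 := by rw [hn]; exact Nat.div_le_self _ _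
  obtain ⟨a', ha'⟩ : ∃ a', a * (n + 1) = b + a' := ⟨a * (n + 1) - b, by omega⟩
  have hlt : a' < a := by
    have : a * (n + 1) = a * n + a := by ring
    omega
  refine ⟨a', n + 1, by omega, by omega, hlt, ?_, ?_⟩
  · have h3 : a' * u < b := lt_of_le_of_lt (Nat.mul_le_mul_right _ hlt.le) hu
    calc a' * ((u + 1) * u) = (a' * u) * (u + 1) := by ring
      _ < b * (u + 1) := Nat.mul_lt_mul_of_pos_right h3 (by omega)
      _ ≤ b * (n + 1) := Nat.mul_le_mul_left _ (by omega)
  · have hb' : (b : ℚ) ≠ 0 := by positivity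
    have : (a : ℚ) * (n + 1) = b + a' := by exact_mod_cast ha'
    push_cast
    field_simp
    linarith

theorem greedy {S B K : ℕ} (H : ∀ a e : ℕ, a ≤ S → B ≤ e → e ≤ B ^ 2 → Rep K ((a : ℚ) / e))
    (i : ℕ) : ∀ a b u : ℕ, a ≤ S → b ≤ B ^ 2 → a * u < b → B ≤ u ^ (2 ^ i) →
      Rep (K + i) ((a : ℚ) / b) := by
  induction i with
  | zero =>
    intro a b u ha hb hu hB
    rcases Nat.eq_zero_or_pos a with rfl | ha0
    · simpa using Rep.zero K
    · apply H a b ha _ hb
      have : u ≤ a * u := Nat.le_mul_of_pos_left _ ha0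
      simp at hB
      omega
  | succ i ih =>
    intro a b u ha hb hu hB
    rcases Nat.eq_zero_or_pos a with rfl | ha0
    · simpa using Rep.zero _
    by_cases hbB : B ≤ b
    · exact (H a b ha hbB hb).mono (by omega)
    obtain ⟨a', n, hn0, hnb, ha', h1, h2⟩ := greedy_step ha0 hu
    rw [h2]
    have := ih a' (b * n) (u ^ 2) (by omega) (by
      rw [sq]; exact Nat.mul_le_mul (by omega) (by omega))
      (lt_of_le_of_lt (Nat.mul_le_mul_left _ (by nlinarith)) h1) (by
        rw [← pow_mul, ← pow_succ']; exact hB)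
    have := (Rep.unit hn0).add this
    exact this.mono (by omega)

theorem greedy_full {S B K i : ℕ}
    (H : ∀ a e : ℕ, a ≤ S → B ≤ e → e ≤ B ^ 2 → Rep K ((a : ℚ) / e))
    (hSB : S ≤ B) (hB : B ≤ 2 ^ (2 ^ i)) (a b : ℕ) (ha : 0 < a) (hab : a < b) (hb : b ≤ S) :
    Rep (K + i + 1) ((a : ℚ) / b) := by
  obtain ⟨a', n, hn0, hnb, ha', h1, h2⟩ := greedy_step (u := 1) ha (by omega : a * 1 < b)
  rw [h2]
  have := greedy H i a' (b * n) 2 (by omega) (by
      rw [sq]; exact Nat.mul_le_mul (by omega) (by omega)) (by simpa using h1) hB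
  have := (Rep.unit hn0).add this
  exact this.mono (by omega)

theorem topdown {R D K M : ℕ} (hR : 0 < R)
    (H : ∀ u : ℕ, R ≤ u → u ≤ 4 * R → Rep K ((u : ℚ) / D)) (i : ℕ) :
    ∀ v : ℕ, v < R ^ (i + 1) → v ≤ 2 ^ M →
      Rep ((i + 1) * K) (((2 * R + v : ℕ) : ℚ) / ((2 ^ M * D : ℕ) : ℚ)) := by
  have base : ∀ v : ℕ, v < R → Rep K (((2 * R + v : ℕ) : ℚ) / ((2 ^ M * D : ℕ) : ℚ)) := by
    intro v hv
    have := (H (2 * R + v) (by omega) (by omega)).div (c := 2 ^ M) (by positivity)
    convert this using 1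
    rw [div_div]; push_cast; ring
  induction i with
  | zero =>
    intro v hv _
    simpa using base v (by simpa using hv)
  | succ i ih =>
    intro v hv hvM
    by_cases hvR : v < R
    · exact (base v hvR).mono (by nlinarith)
    push Not at hvR
    obtain ⟨j, hj⟩ : ∃ j, j = Nat.log 2 (v / R) := ⟨_, rfl⟩
    have hq : 0 < v / R := Nat.div_pos hvR hR
    have h1 : 2 ^ j ≤ v / R := by rw [hj]; exact Nat.pow_log_le_self 2 hq.ne'
    have h2 : v / R < 2 ^ (j + 1) := by rw [hj]; exact Nat.lt_pow_succ_log_self (by norm_num) _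
    have h1' : 2 ^ j * R ≤ v := (Nat.le_div_iff_mul_le hR).1 h1
    have h2' : v < 2 ^ (j + 1) * R := (Nat.div_lt_iff_lt_mul hR).1 h2
    have hp : 0 < 2 ^ j := by positivity
    have hs1 : R ≤ v / 2 ^ j := by rw [Nat.le_div_iff_mul_le hp, mul_comm]; exact h1'
    have hs2 : v / 2 ^ j < 2 * R := by
      rw [Nat.div_lt_iff_lt_mul hp]
      calc v < 2 ^ (j + 1) * R := h2'
        _ = 2 * R * 2 ^ j := by ring
    have hmod : v % 2 ^ j < 2 ^ j := Nat.mod_lt _ hp
    have hjM : j ≤ M := by
      have : 2 ^ j ≤ 2 ^ M := by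
        calc 2 ^ j ≤ 2 ^ j * R := Nat.le_mul_of_pos_right _ hR
          _ ≤ v := h1'
          _ ≤ 2 ^ M := hvM
      exact (Nat.pow_le_pow_iff_right (by norm_num)).1 this
    have h3 : 2 ^ j < R ^ (i + 1) := by
      have : 2 ^ j * R < R ^ (i + 1) * R := by rw [← pow_succ]; exact lt_of_le_of_lt h1' hv
      exact lt_of_mul_lt_mul_right this (Nat.zero_le _)
    have hA := ih (v % 2 ^ j) (by omega) ((Nat.mod_le _ _).trans hvM)
    have hB := (H (v / 2 ^ j) hs1 (by omega)).div (c := 2 ^ (M - j)) (by positivity)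
    have := hA.add hB
    convert this using 1
    · ring
    · have hv' : (v : ℚ) = 2 ^ j * ((v / 2 ^ j : ℕ) : ℚ) + ((v % 2 ^ j : ℕ) : ℚ) := by
        exact_mod_cast (Nat.div_add_mod v (2 ^ j)).symm
      have hM : (2 : ℚ) ^ M = 2 ^ j * 2 ^ (M - j) := by
        rw [← pow_add]; congr 1; omega
      rcases Nat.eq_zero_or_pos D with rfl | hD
      · simp
      have hD' : (D : ℚ) ≠ 0 := by positivity
      simp only [Nat.cast_add, Nat.cast_mul, Nat.cast_pow, Nat.cast_ofNat]
      rw [hM]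
      nth_rewrite 1 [hv']
      field_simp
      ring

end Crest.Agent.R19
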