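import Mathlib
import Crest.Agent.R19.Rep
import Crest.Agent.R19.Energy

set_option autoImplicit false

namespace Crest.Agent.R19

open Finset

theorem exists_X {F : Finset ℕ} {P q : ℕ} (hP : 0 < P) (hq : 2 ≤ q) (hF : ∀ f ∈ F, f ∣ P)
    (hinj : ∀ f ∈ F, ∀ f' ∈ F, f ≡ f' [MOD q] → f = f') (i : ℕ) :
    ∃ X : Finset ℕ, X.card = F.card ^ i ∧ ∀ x ∈ X, x + P ≤ P * q ^ i ∧
      Rep i ((x : ℚ) / ((P * q ^ i : ℕ) : ℚ)) ∧ (0 < i → 0 < x) := by
  induction i with
  | zero =>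
    refine ⟨{0}, by simp, ?_⟩
    intro x hx
    rw [Finset.mem_singleton] at hx
    subst hx
    refine ⟨by simp, by simpa using Rep.zero 0, by simp⟩
  | succ i ih =>
    obtain ⟨X, hX, H⟩ := ih
    refine ⟨(X ×ˢ F).image (fun z => q * z.1 + z.2), ?_, ?_⟩
    · rw [Finset.card_image_of_injOn, Finset.card_product, hX, pow_succ]
      rintro ⟨a, f⟩ ha ⟨b, g⟩ hb hab
      simp only [coe_product, Set.mem_prod, mem_coe] at ha hb
      simp only at hab
      have h1 : f ≡ g [MOD q] := by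
        have : (q * a + f) % q = (q * b + g) % q := by rw [hab]
        simpa [Nat.ModEq] using this
      have h2 := hinj f ha.2 g hb.2 h1
      subst h2
      have h3 : q * a = q * b := by omega
      have h4 : a = b := Nat.eq_of_mul_eq_mul_left (by omega) h3
      rw [h4]
    · intro x hx
      obtain ⟨⟨a, f⟩, ha, rfl⟩ := Finset.mem_image.1 hx
      rw [Finset.mem_product] at ha
      obtain ⟨h1, h2, _⟩ := H a ha.1
      have hf := hF f ha.2
      have hfP : f ≤ P := Nat.le_of_dvd hP hf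
      have hf0 : 0 < f := Nat.pos_of_dvd_of_pos hf hP
      simp only at hf hfP hf0 ⊢
      refine ⟨?_, ?_, fun _ => by omega⟩
      · calc q * a + f + P ≤ q * a + 2 * P := by omega
          _ ≤ q * a + q * P := by gcongr
          _ = q * (a + P) := by ring
          _ ≤ q * (P * q ^ i) := by gcongr
          _ = P * q ^ (i + 1) := by ring
      · have h3 : Rep 1 ((f : ℚ) / ((P * q ^ (i + 1) : ℕ) : ℚ)) :=
          Rep.of_dvd (by positivity) (Dvd.dvd.mul_right hf _)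
        have := h2.add h3
        convert this using 1
        have : (P : ℚ) ≠ 0 := by positivity
        have : (q : ℚ) ≠ 0 := by positivity
        push_cast
        field_simp
        ring

theorem exists_F {lam n : ℕ} (hn : n ≤ Nat.primeCounting lam) :
    ∃ (F : Finset ℕ) (P : ℕ), 0 < P ∧ P ≤ lam ^ n ∧ F.card = 2 ^ n ∧ ∀ f ∈ F, f ∣ P := by
  obtain ⟨T, hT, hTc⟩ := Finset.exists_subset_card_eq (s := Nat.primesLE lam) (n := n)
    (by rwa [Nat.primesLE_card_eq_primeCounting])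
  have hprime : ∀ p ∈ T, p.Prime := fun p hp => Nat.prime_of_mem_primesLE (hT hp)
  refine ⟨T.powerset.image (fun U => ∏ p ∈ U, p), ∏ p ∈ T, p, ?_, ?_, ?_, ?_⟩
  · exact Finset.prod_pos fun p hp => (hprime p hp).pos
  · rw [← hTc]
    exact Finset.prod_le_pow_card _ _ _ fun p hp => Nat.le_of_mem_primesLE (hT hp)
  · rw [Finset.card_image_of_injOn, Finset.card_powerset, hTc]
    intro U hU V hV hUV
    simp only [coe_powerset, Set.mem_preimage, Set.mem_powerset_iff, coe_subset] at hU hV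
    have h1 := Nat.primeFactors_prod (s := U) (fun p hp => hprime p (hU hp))
    have h2 := Nat.primeFactors_prod (s := V) (fun p hp => hprime p (hV hp))
    simp only at hUV
    rw [← h1, ← h2, hUV]
  · intro f hf
    obtain ⟨U, hU, rfl⟩ := Finset.mem_image.1 hf
    exact Finset.prod_dvd_prod_of_subset _ _ _ (Finset.mem_powerset.1 hU)

theorem exists_sep {F : Finset ℕ} {t Z : ℕ} (hF : ∀ f ∈ F, f ≤ 2 ^ t)
    (hZ : F.card ^ 2 * t < Nat.primeCounting Z) :
    ∃ q, 2 ≤ q ∧ q ≤ Z ∧ ∀ f ∈ F, ∀ f' ∈ F, f ≡ f' [MOD q] → f = f' := by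
  have h1 := sum_coll_le (Q := Nat.primesLE Z) (fun s hs => Nat.prime_of_mem_primesLE hs) F hF
  have h2 : ∃ q ∈ Nat.primesLE Z, coll F q = 0 := by
    by_contra hcon
    push Not at hcon
    have := Finset.card_nsmul_le_sum (Nat.primesLE Z) (fun s => coll F s) 1
      (fun s hs => Nat.one_le_iff_ne_zero.2 (hcon s hs))
    rw [Nat.primesLE_card_eq_primeCounting, smul_eq_mul, mul_one] at this
    omega
  obtain ⟨q, hq, hc⟩ := h2
  refine ⟨q, Nat.two_le_of_mem_primesLE hq, Nat.le_of_mem_primesLE hq, ?_⟩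
  intro f hf f' hf' hff
  by_contra hne
  unfold coll at hc
  rw [Finset.card_eq_zero, Finset.filter_eq_empty_iff] at hc
  exact hc (x := (f, f')) (Finset.mem_product.2 ⟨hf, hf'⟩) ⟨hne, hff⟩

theorem rep_comb {K m D E a₁ a₂ a₃ a₄ y : ℕ} (hE : 0 < E) (h₁ : Rep K ((a₁ : ℚ) / D))
    (h₂ : Rep K ((a₂ : ℚ) / D)) (h₃ : Rep K ((a₃ : ℚ) / D)) (h₄ : Rep K ((a₄ : ℚ) / D))
    (hy : Rep m ((y : ℚ) / E)) :
    Rep ((2 + 2 * m) * K) (((a₁ + y * a₂ + a₃ + y * a₄ : ℕ) : ℚ) / ((D * E : ℕ) : ℚ)) := by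
  have := (((h₁.div hE).add (hy.mul h₂)).add (h₃.div hE)).add (hy.mul h₄)
  convert this using 1
  · ring
  · push_cast
    rcases Nat.eq_zero_or_pos D with rfl | hD
    · simp
    have : (D : ℚ) ≠ 0 := by positivity
    have : (E : ℚ) ≠ 0 := by positivity
    field_simp

theorem good_primes {X Q : Finset ℕ} {t D E K m c L Y S : ℕ} (hE : 0 < E)
    (hX : ∀ x ∈ X, 0 < x ∧ x ≤ 2 ^ t ∧ Rep K ((x : ℚ) / D))
    (hQ : ∀ s ∈ Q, s.Prime ∧ Y ≤ s ∧ s ≤ S) (hQX : Q.card ≤ X.card) (hX0 : 0 < X.card)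
    (hSQ : S ≤ c * Q.card)
    (hL : c * (1 + 2 * t) ≤ L) (hY : L ^ 2 < Y)
    (hdig : ∀ y < Y, Rep m ((y : ℚ) / E)) :
    ∃ G ⊆ Q, Q.card ≤ 2 * G.card ∧
      ∀ s ∈ G, Rep ((2 + 2 * m) * K) ((s : ℚ) / ((D * E : ℕ) : ℚ)) := by
  have h1 := sum_coll_le (Q := Q) (fun s hs => (hQ s hs).1) X (fun x hx => (hX x hx).2.1)
  refine ⟨_, Finset.filter_subset _ _, markov_half Q (coll X) _ h1, ?_⟩
  intro s hs
  rw [Finset.mem_filter] at hs
  obtain ⟨hsQ, hs⟩ := hs
  obtain ⟨hp, hYs, hsS⟩ := hQ s hsQ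
  have h2 := card_sq_le_coll X s
  set A := (X.image (fun x : ℕ => (x : ZMod s))).card
  have h3 : X.card ^ 2 * Q.card ≤ X.card ^ 2 * ((1 + 2 * t) * A) := by
    calc X.card ^ 2 * Q.card ≤ A * (X.card + coll X s) * Q.card := by gcongr
      _ = A * (X.card * Q.card + coll X s * Q.card) := by ring
      _ ≤ A * (X.card * X.card + 2 * (X.card ^ 2 * t)) := by gcongr
      _ = _ := by ring
  have h4 : Q.card ≤ (1 + 2 * t) * A := Nat.le_of_mul_le_mul_left h3 (by positivity)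
  have h5 : s ≤ L * A := by
    calc s ≤ S := hsS
      _ ≤ c * Q.card := hSQ
      _ ≤ c * ((1 + 2 * t) * A) := by gcongr
      _ = (c * (1 + 2 * t)) * A := by ring
      _ ≤ L * A := by gcongr
  obtain ⟨y, hy, H⟩ := exists_dilate_nat hp X L Y h5 hY hYs
  obtain ⟨a₁, h₁, a₂, h₂, a₃, h₃, a₄, h₄, h⟩ := H 0
  have hrep := rep_comb hE (hX _ h₁).2.2 (hX _ h₂).2.2 (hX _ h₃).2.2 (hX _ h₄).2.2 (hdig y hy)
  obtain ⟨w, hw⟩ := (Nat.modEq_zero_iff_dvd).1 h
  have hw0 : 0 < w := by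
    rcases Nat.eq_zero_or_pos w with rfl | h0
    · have := (hX _ h₁).1
      omega
    · exact h0
  rw [hw] at hrep
  exact Rep.of_mul hw0 hrep

theorem second_stage {G : Finset ℕ} {D E K m L Y S R J : ℕ} (hE : 0 < E)
    (hG : ∀ s ∈ G, s.Prime ∧ Y ≤ s ∧ s ≤ S ∧ Rep K ((s : ℚ) / D)) (hS0 : 0 < S)
    (hS : S ≤ L * G.card) (hY : L ^ 2 < Y) (hR : 2 * Y * S ≤ R) (hJ : 4 * R * L < J * S)
    (hdig : ∀ y < J, Rep m ((y : ℚ) / E)) (hYJ : Y ≤ J) (u : ℕ) (hu1 : R ≤ u) (hu2 : u ≤ 4 * R) :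
    Rep ((2 + 3 * m) * K) ((u : ℚ) / ((D * E : ℕ) : ℚ)) := by
  have hGne : G.Nonempty := by
    rw [← Finset.card_pos]
    rcases Nat.eq_zero_or_pos G.card with h | h
    · rw [h] at hS; omega
    · exact h
  obtain ⟨q, hq, hmax⟩ := G.exists_max_image id hGne
  simp only [id] at hmax
  obtain ⟨hp, hYq, hqS, hqrep⟩ := hG q hq
  have hGq : G.card ≤ q := by
    have : G ⊆ Finset.Icc 1 q := by
      intro s hs
      exact Finset.mem_Icc.2 ⟨(hG s hs).1.pos, hmax s hs⟩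
    simpa using Finset.card_le_card this
  have hcard : (G.image (fun x : ℕ => (x : ZMod q))).card = G.card := by
    apply Finset.card_image_of_injOn
    intro a ha b hb hab
    have ha0 := (hG a ha).1.pos
    have hb0 := (hG b hb).1.pos
    have ha1 := hmax a ha
    have hb1 := hmax b hb
    have h := (ZMod.natCast_eq_natCast_iff a b q).1 hab
    rcases le_total a b with hab' | hab'
    · have := (Nat.modEq_iff_dvd' hab').1 h
      rcases Nat.eq_zero_or_pos (b - a) with h0 | h0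
      · omega
      · have := Nat.le_of_dvd h0 this
        omega
    · have := (Nat.modEq_iff_dvd' hab').1 h.symm
      rcases Nat.eq_zero_or_pos (a - b) with h0 | h0
      · omega
      · have := Nat.le_of_dvd h0 this
        omega
  obtain ⟨y, hy, H⟩ := exists_dilate_nat hp G L Y (by rw [hcard]; omega) hY hYq
  obtain ⟨a₁, h₁, a₂, h₂, a₃, h₃, a₄, h₄, h⟩ := H u
  have hrep := rep_comb hE (hG _ h₁).2.2.2 (hG _ h₂).2.2.2 (hG _ h₃).2.2.2 (hG _ h₄).2.2.2
    (hdig y (by omega))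
  have hle : a₁ + y * a₂ + a₃ + y * a₄ ≤ u := by
    have e1 := (hG _ h₁).2.2.1
    have e2 := (hG _ h₂).2.2.1
    have e3 := (hG _ h₃).2.2.1
    have e4 := (hG _ h₄).2.2.1
    calc a₁ + y * a₂ + a₃ + y * a₄ ≤ S + y * S + S + y * S := by gcongr
      _ = 2 * (y + 1) * S := by ring
      _ ≤ 2 * Y * S := by gcongr; omega
      _ ≤ u := by omega
  obtain ⟨j, hj⟩ := (Nat.modEq_iff_dvd' hle).1 h
  have hjJ : j < J := by
    have h1 : j * S < J * S := by
      calc j * S ≤ j * (L * q) := by gcongr; exact hS.trans (Nat.mul_le_mul_left _ hGq)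
        _ = (q * j) * L := by ring
        _ ≤ 4 * R * L := Nat.mul_le_mul_right _ (by rw [← hj]; omega)
        _ < J * S := hJ
    exact lt_of_mul_lt_mul_right h1 (Nat.zero_le _)
  have := hrep.add ((hdig j hjJ).mul hqrep)
  convert this using 1
  · ring
  · have hu : u = (a₁ + y * a₂ + a₃ + y * a₄) + q * j := by omega
    rw [hu]
    rcases Nat.eq_zero_or_pos D with rfl | hD
    · simp
    have : (D : ℚ) ≠ 0 := by positivity
    have : (E : ℚ) ≠ 0 := by positivity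
    push_cast
    field_simp

theorem eight_cube_lt {n : ℕ} (hn : 5 ≤ n) : 8 * n ^ 3 < 2 ^ (2 * n) := by
  induction n, hn using Nat.le_induction with
  | base => norm_num
  | succ n hn ih =>
    have : 2 ^ (2 * (n + 1)) = 4 * 2 ^ (2 * n) := by ring
    rw [this]
    have : (n + 1) ^ 3 ≤ 4 * n ^ 3 := by
      have h1 : (n + 1) ^ 3 = n ^ 3 + 3 * n ^ 2 + 3 * n + 1 := by ring
      have h2 : n ^ 3 = n * n ^ 2 := by ring
      nlinarith
    omega

theorem eight_sq_le {k : ℕ} (hk : 10 ≤ k) : 8 * k ^ 2 ≤ 2 ^ k := by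
  induction k, hk using Nat.le_induction with
  | base => norm_num
  | succ n hn ih =>
    rw [pow_succ 2 n]
    nlinarith

theorem key {k : ℕ} (hk : 10 ≤ k) : ∃ D R : ℕ, 0 < D ∧ D ≤ 2 ^ (13 * 2 ^ k) ∧ 2 ^ 2 ^ k ≤ R ∧
    R ≤ 2 ^ (2 * 2 ^ k) ∧ ∀ u : ℕ, R ≤ u → u ≤ 4 * R → Rep (10416 * k) ((u : ℚ) / D) := by
  obtain ⟨lam, hlam⟩ : ∃ lam, lam = 2 ^ k := ⟨_, rfl⟩
  rw [← hlam]
  have h8 : 8 * k ^ 2 ≤ lam := hlam ▸ eight_sq_le hk
  have hlam1 : 800 ≤ lam := by nlinarith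
  obtain ⟨n, hn⟩ : ∃ n, n = lam / (2 * k) := ⟨_, rfl⟩
  have hn1 : 2 * k * n ≤ lam := by rw [hn]; exact Nat.mul_div_le _ _
  have hn2 : 4 * k ≤ n := by
    rw [hn, Nat.le_div_iff_mul_le (by omega)]; nlinarith
  have hn3 : lam ≤ 4 * k * n := by
    have : lam < 2 * k * (n + 1) := by rw [hn]; exact Nat.lt_mul_div_succ _ (by omega)
    nlinarith
  have hn4 : lam ≤ n ^ 2 := by nlinarith
  have hnlam : n ≤ lam := by nlinarith
  have hpow : ∀ c : ℕ, lam ^ c = 2 ^ (k * c) := fun c => by rw [hlam, ← pow_mul]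
  have hpi : n ≤ Nat.primeCounting lam := by
    have := pi_two_pow (t := k) (by omega)
    rw [← hlam] at this
    exact Nat.le_of_mul_le_mul_left (hn1.trans this) (by omega)
  obtain ⟨F, P, hP0, hP, hFc, hF⟩ := exists_F hpi
  have hP' : P ≤ 2 ^ lam := by
    refine hP.trans ?_
    rw [hpow]
    exact Nat.pow_le_pow_right (by norm_num) (by nlinarith)
  obtain ⟨q, hq2, hqZ, hinj⟩ := exists_sep (F := F) (t := lam) (Z := 2 ^ (4 * n))
    (fun f hf => (Nat.le_of_dvd hP0 (hF f hf)).trans hP') (by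
      have h1 := pi_two_pow (t := 4 * n) (by omega)
      have h2 := eight_cube_lt (n := n) (by omega)
      rw [hFc]
      by_contra hcon
      push Not at hcon
      have h3 : 2 ^ (4 * n) ≤ 2 * (4 * n) * ((2 ^ n) ^ 2 * n ^ 2) :=
        h1.trans (by gcongr; exact hcon.trans (by gcongr))
      have h4 : 2 ^ (4 * n) = (2 ^ n) ^ 2 * 2 ^ (2 * n) := by ring
      have h5 : (2 ^ n) ^ 2 * 2 ^ (2 * n) ≤ (2 ^ n) ^ 2 * (8 * n ^ 3) := by
        rw [← h4]; refine h3.trans (le_of_eq ?_); ring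
      have := Nat.le_of_mul_le_mul_left h5 (by positivity)
      omega)
  obtain ⟨X, hXc, hX⟩ := exists_X hP0 hq2 hF hinj (4 * k)
  obtain ⟨S, hS⟩ : ∃ S, S = 2 ^ lam := ⟨_, rfl⟩
  have hS0 : 0 < S := by rw [hS]; positivity
  have hSX : S ≤ X.card := by
    rw [hXc, hFc, ← pow_mul, hS]
    exact Nat.pow_le_pow_right (by norm_num) (by nlinarith)
  have hD1 : P * q ^ (4 * k) ≤ 2 ^ (9 * lam) := by
    calc P * q ^ (4 * k) ≤ 2 ^ lam * (2 ^ (4 * n)) ^ (4 * k) := by gcongr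
      _ = 2 ^ (lam + 4 * n * (4 * k)) := by rw [← pow_mul, ← pow_add]
      _ ≤ 2 ^ (9 * lam) := Nat.pow_le_pow_right (by norm_num) (by nlinarith)
  have hE0 : 0 < n.factorial * n ^ 20 := by
    have := Nat.factorial_pos n
    have : 0 < n := by omega
    positivity
  have hE : n.factorial * n ^ 20 ≤ 2 ^ (2 * lam) := by
    calc n.factorial * n ^ 20 ≤ n ^ n * n ^ 20 := by gcongr; exact Nat.factorial_le_pow n
      _ ≤ lam ^ n * lam ^ 20 := by gcongr
      _ = 2 ^ (k * n + k * 20) := by rw [hpow, hpow, ← pow_add]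
      _ ≤ 2 ^ (2 * lam) := Nat.pow_le_pow_right (by norm_num) (by nlinarith)
  have hdig : ∀ y < lam ^ 10, Rep 20 ((y : ℚ) / ((n.factorial * n ^ 20 : ℕ) : ℚ)) := by
    intro y hy
    apply rep_digits (by omega)
    calc y < lam ^ 10 := hy
      _ ≤ (n ^ 2) ^ 10 := by gcongr
      _ = n ^ 20 := by ring
  have hl8 : 4 * lam ^ 8 ≤ S := by
    rw [hpow, hS]
    calc 4 * 2 ^ (k * 8) = 2 ^ (k * 8 + 2) := by ring
      _ ≤ 2 ^ lam := Nat.pow_le_pow_right (by norm_num) (by nlinarith)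
  set Q := (Nat.primesLE S).filter (fun s => lam ^ 7 ≤ s) with hQdef
  have hQ : ∀ s ∈ Q, s.Prime ∧ lam ^ 7 ≤ s ∧ s ≤ S := by
    intro s hs
    rw [hQdef, Finset.mem_filter] at hs
    exact ⟨Nat.prime_of_mem_primesLE hs.1, hs.2, Nat.le_of_mem_primesLE hs.1⟩
  have hQS : Q.card ≤ S := by
    have : Q ⊆ Finset.Icc 1 S := by
      intro s hs
      exact Finset.mem_Icc.2 ⟨(hQ s hs).1.pos, (hQ s hs).2.2⟩
    simpa using Finset.card_le_card this
  have hSQ : S ≤ 4 * lam * Q.card := by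
    have h1 := pi_two_pow (t := lam) (by omega)
    rw [← hS] at h1
    have h2 : Nat.primesLE S ⊆ Q ∪ Finset.range (lam ^ 7) := by
      intro s hs
      rw [Finset.mem_union, hQdef, Finset.mem_filter, Finset.mem_range]
      by_cases h : lam ^ 7 ≤ s
      · exact Or.inl ⟨hs, h⟩
      · exact Or.inr (by omega)
    have h3 := (Finset.card_le_card h2).trans (Finset.card_union_le _ _)
    rw [Nat.primesLE_card_eq_primeCounting, Finset.card_range] at h3
    have h4 : S ≤ 2 * lam * (Q.card + lam ^ 7) := h1.trans (by gcongr)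
    have h5 : 2 * lam * (Q.card + lam ^ 7) = 2 * lam * Q.card + 2 * lam ^ 8 := by ring
    have h6 : 4 * lam * Q.card = 2 * (2 * lam * Q.card) := by ring
    omega
  have h67 : (lam ^ 3) ^ 2 < lam ^ 7 := by
    rw [← pow_mul]
    exact Nat.pow_lt_pow_right (by omega) (by norm_num)
  have h710 : lam ^ 7 ≤ lam ^ 10 := Nat.pow_le_pow_right (by omega) (by norm_num)
  obtain ⟨G, hGQ, hGc, hG⟩ := good_primes (X := X) (Q := Q) (t := 9 * lam) (D := P * q ^ (4 * k))
    (K := 4 * k) (m := 20) (c := 4 * lam) (L := lam ^ 3) (Y := lam ^ 7) (S := S) hE0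
    (fun x hx => ⟨(hX x hx).2.2 (by omega), by have := (hX x hx).1; omega, (hX x hx).2.1⟩)
    hQ (hQS.trans hSX) (by omega) hSQ (by
      have : lam ^ 3 = lam * (lam * lam) := by ring
      rw [this]; nlinarith) h67 (fun y hy => hdig y (by omega))
  refine ⟨P * q ^ (4 * k) * (n.factorial * n ^ 20) * (n.factorial * n ^ 20), lam ^ 8 * S,
    by positivity, ?_, ?_, ?_, ?_⟩
  · calc P * q ^ (4 * k) * (n.factorial * n ^ 20) * (n.factorial * n ^ 20)
        ≤ 2 ^ (9 * lam) * 2 ^ (2 * lam) * 2 ^ (2 * lam) := by gcongr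
      _ = 2 ^ (13 * lam) := by ring
  · rw [← hS]
    exact Nat.le_mul_of_pos_left _ (by positivity)
  · calc lam ^ 8 * S ≤ S * S := by gcongr; omega
      _ = 2 ^ (2 * lam) := by rw [hS]; ring
  · intro u hu1 hu2
    have hSG : S ≤ 8 * lam * G.card := by
      calc S ≤ 4 * lam * Q.card := hSQ
        _ ≤ 4 * lam * (2 * G.card) := by gcongr
        _ = _ := by ring
    have := second_stage (G := G) (D := P * q ^ (4 * k) * (n.factorial * n ^ 20))
      (K := (2 + 2 * 20) * (4 * k)) (m := 20) (L := 8 * lam) (Y := lam ^ 7) (S := S)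
      (R := lam ^ 8 * S) (J := lam ^ 10) hE0
      (fun s hs => ⟨(hQ s (hGQ hs)).1, (hQ s (hGQ hs)).2.1, (hQ s (hGQ hs)).2.2, hG s hs⟩)
      hS0 hSG (by
        refine lt_of_le_of_lt ?_ h67
        gcongr
        have : lam ^ 3 = lam * (lam * lam) := by ring
        rw [this]; nlinarith) (by
        have : lam ^ 8 = lam * lam ^ 7 := by ring
        rw [this]; gcongr; omega) (by
        have h1 : 4 * (lam ^ 8 * S) * (8 * lam) = 32 * (lam ^ 9 * S) := by ring
        have h2 : lam ^ 10 * S = lam * (lam ^ 9 * S) := by ring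
        rw [h1, h2]
        exact Nat.mul_lt_mul_of_pos_right (by omega) (by positivity)) hdig h710 u hu1 hu2
    exact this.mono (by omega)

theorem main_rep {k : ℕ} (hk : 10 ≤ k) (a b : ℕ) (ha : 0 < a) (hab : a < b) (hb : b ≤ 2 ^ 2 ^ k) :
    Rep (710000 * k) ((a : ℚ) / b) := by
  obtain ⟨D, R, hD0, hD, hR1, hR2, H⟩ := key hk
  obtain ⟨lam, hlam⟩ : ∃ lam, lam = 2 ^ k := ⟨_, rfl⟩
  have h8 : 8 * k ^ 2 ≤ lam := hlam ▸ eight_sq_le hk
  have hlam1 : 800 ≤ lam := by nlinarith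
  rw [← hlam] at hD hR1 hR2 hb
  have hR0 : 0 < R := lt_of_lt_of_le (by positivity) hR1
  have htop := topdown (M := 31 * lam) hR0 H 31
  have hM : 2 ^ (31 * lam) < R ^ (31 + 1) := by
    calc 2 ^ (31 * lam) < 2 ^ (lam * (31 + 1)) :=
          Nat.pow_lt_pow_right (by norm_num) (by omega)
      _ = (2 ^ lam) ^ (31 + 1) := by rw [pow_mul]
      _ ≤ R ^ (31 + 1) := by gcongr
  have H2 : ∀ a e : ℕ, a ≤ 2 ^ lam → 2 ^ (14 * lam) ≤ e → e ≤ (2 ^ (14 * lam)) ^ 2 →
      Rep (64 * (10416 * k)) ((a : ℚ) / e) := by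
    intro a e ha he1 he2
    rcases Nat.eq_zero_or_pos a with rfl | ha0
    · simpa using Rep.zero _
    have he0 : 0 < e := lt_of_lt_of_le (by positivity) he1
    obtain ⟨W, hW⟩ : ∃ W, W = 2 ^ (31 * lam) := ⟨_, rfl⟩
    rw [← hW] at htop hM
    have hW0 : 0 < W := by rw [hW]; positivity
    have h1 : 2 * R * (e + 1) ≤ W := by
      calc 2 * R * (e + 1) ≤ 2 * 2 ^ (2 * lam) * (2 * (2 ^ (14 * lam)) ^ 2) := by
            gcongr; omega
        _ = 2 ^ (30 * lam + 2) := by ring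
        _ ≤ W := by rw [hW]; exact Nat.pow_le_pow_right (by norm_num) (by omega)
    have h2 : W ≤ a * (W * D) := by
      calc W = 1 * (W * 1) := by ring
        _ ≤ a * (W * D) := by gcongr <;> omega
    have h3 : a * (W * D) ≤ e * W := by
      calc a * (W * D) = (a * D) * W := by ring
        _ ≤ (2 ^ lam * 2 ^ (13 * lam)) * W := by gcongr
        _ = 2 ^ (14 * lam) * W := by ring
        _ ≤ e * W := by gcongr
    obtain ⟨T, hT⟩ : ∃ T, a * (W * D) = 2 * R * (e + 1) + T := ⟨a * (W * D) - 2 * R * (e + 1), by omega⟩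
    have hT1 : T / e ≤ W := by
      apply Nat.div_le_of_le_mul
      omega
    have hT0 : T % e ≤ W := by
      have := Nat.mod_lt T he0
      nlinarith
    have r1 := htop (T / e) (by omega) hT1
    have r0 := (htop (T % e) (by omega) hT0).div he0
    have := r1.add r0
    convert this using 1
    · ring
    · have hT' : (T : ℚ) = e * ((T / e : ℕ) : ℚ) + ((T % e : ℕ) : ℚ) := by
        exact_mod_cast (Nat.div_add_mod T e).symm
      have hT'' : (a : ℚ) * (W * D) = 2 * R * (e + 1) + T := by exact_mod_cast hT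
      have : (D : ℚ) ≠ 0 := by positivity
      have : (W : ℚ) ≠ 0 := by positivity
      have : (e : ℚ) ≠ 0 := by positivity
      simp only [Nat.cast_add, Nat.cast_mul, Nat.cast_ofNat]
      field_simp
      linear_combination hT'' + hT'
  have := greedy_full (i := k + 4) H2 (Nat.pow_le_pow_right (by norm_num) (by omega))
    (Nat.pow_le_pow_right (by norm_num) (by rw [pow_add, ← hlam]; omega)) a b ha hab hb
  exact this.mono (by omega)

end Crest.Agent.R19
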